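import Mathlib

/-! P034 row A7: the abstract kernel lemma (same proof as `exists_pi_aux` in
`Vale/Agent/H2/P034/Core.lean`). -/

namespace Vale.Agent.H11.P34

open Finset

variable {α : Type*} [Fintype α] [DecidableEq α]

theorem kernel_exists (T : Finset α → Finset α → ℝ) (hT : ∀ V Y, 0 ≤ T V Y)
    (hsupp : ∀ V Y, T V Y ≠ 0 → Y.Nonempty ∧ Disjoint Y V)
    (Stop : Finset α → Prop) (h : Finset α → ℝ) (x : ℝ) (hx : 0 ≤ x)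
    (hstop : ∀ V, Stop V → 1 ≤ h V)
    (hcost : ∀ V, ¬ Stop V → ∑ Y : Finset α, T V Y * (x ^ Y.card * h (V ∪ Y)) ≤ h V) :
    ∃ π : Finset α → ℝ, (∀ O, 0 ≤ π O) ∧ (∀ O, π O ≠ 0 → Stop O) ∧
      (∀ U, Stop U → (∀ V, V ⊆ U → ¬ Stop V → 1 ≤ ∑ Y ∈ U.powerset, T V Y) →
        1 ≤ ∑ O ∈ U.powerset, π O) ∧
      ∑ O, π O * x ^ O.card ≤ h ∅ := by
  sorry

end Vale.Agent.H11.P34
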